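import Vale.Agent.P128.Top

namespace Vale.Agent.Results.P128.A_full

open MeasureTheory Set Metric Filter Topology Vale.Agent.P128
open scoped ENNReal

theorem result (Ω : Set ℂ) (hΩ : IsOpen Ω) (g u : ℂ → ℝ) (G : ℂ → ℂ) (K : Set ℂ)
    (hg : MemLp g ∞ (volume.restrict Ω)) (hmin : Minimizer Ω g u G K) (hred : Reduced Ω K) :
    ∀ x ∈ K, ∃ α : ℝ, 0 < α ∧ ∃ N ∈ 𝓝 x, N ⊆ Ω ∧
      (ArcThrough α (K ∩ N) x ∨ ArcEnding α (K ∩ N) x ∨ TripleJunction α (K ∩ N) x) :=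
  fun _ hx => top hΩ hg hmin hred hx

end Vale.Agent.Results.P128.A_full
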