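import Vale.Agent.P128.EARN.Main

namespace Vale.Agent.Results.P128.S1_nopiece

open Vale.Agent.P128

theorem result (c : ℝ) (u : ℂ → ℝ) (K : Set ℂ) (h : GM c u K) : NoPiece K :=
  h.noPiece

end Vale.Agent.Results.P128.S1_nopiece
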