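import Vale.Agent.P128.B7c.Main

namespace Vale.Agent.Results.P128.S2_lowreg

open Vale.Agent.P128 Metric Set

theorem result (c : ℝ) (hc : 0 < c) : ∃ δ₀ : ℝ, 0 < δ₀ ∧ ∀ (u : ℂ → ℝ) (K : Set ℂ), GM c u K →
    ∀ (x : ℂ) (r : ℝ), x ∈ K → 0 < r → D u K x r ≤ δ₀ * r → Reg univ K x := by
  obtain ⟨δ₀, ε₀, h1, h2, h⟩ := LOWREG hc
  refine ⟨δ₀, h1, fun u K hG x r hx hr hD => ?_⟩
  rcases h univ 0 True u K hG x r hx hr (subset_univ _) (by simpa using h2.le) hD with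
    ⟨e, t, A, α, φ, φ', ht, -, hα, hg⟩ | ⟨-, ρ, A, α, z, z', -, hS, hT⟩
  · exact hg.reg ht one_pos hα (subset_univ _)
  · exact hS.reg (Or.inr rfl) hT (subset_univ _)

end Vale.Agent.Results.P128.S2_lowreg
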