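import Vale.Agent.P128.B8.Main

namespace Vale.Agent.Results.P128.S3_class

open Vale.Agent.P128

theorem result (c : ℝ) (u : ℂ → ℝ) (K : Set ℂ) (h : GM c u K) (hne : K.Nonempty) :
    IsNet u K ∨ ∃ z e : ℂ, IsRay u K z e 1 :=
  CLASS h hne

end Vale.Agent.Results.P128.S3_class
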